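import Vale.Agent.P151.GB.Amen
import Vale.Agent.P151.H648.Main
import Vale.Agent.P151.R2.H279.Induct

open MeasureTheory ProbabilityTheory

namespace Vale.Agent.Results.P151.APolynomialGrowth

open Vale.Agent.P151 Vale.Agent.P151.H648

/-- Weak polynomial growth: for some vertex `o` and some exponent `D`, the balls satisfy
`|B(o, n)| ≤ n ^ D` for infinitely many `n`. -/
def HasWeakPolynomialGrowth {V : Type} (G : SimpleGraph V) : Prop :=
  ∃ (o : V) (D : ℕ), ∀ N : ℕ, ∃ n : ℕ, N ≤ n ∧ {y | G.dist o y ≤ n}.ncard ≤ n ^ D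

/-- No percolation at `p_c` on quasi-transitive graphs of weak polynomial growth. -/
theorem weak_no_perc {V : Type} {G : SimpleGraph V} [G.LocallyFinite] [Infinite V]
    (hG : G.Connected) (hqt : IsQuasiTransitive G) (hpc1 : pc G < 1)
    (hgr : HasWeakPolynomialGrowth G) (p : unitInterval) (hp : (p : ℝ) = pc G) :
    setBernoulli G.edgeSet p (hasInfiniteCluster V) = 0 := by
  obtain ⟨o, D, h⟩ := hgr
  have hw : ∃ᶠ n : ℕ in Filter.atTop, {y | G.dist o y ≤ n}.ncard ≤ n ^ D :=
    Filter.frequently_atTop.2 h
  refine no_perc_class V G hG hpc1 ?_ p hp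
  rcases GB.weak_class hG hqt o hw with h1 | h1
  · exact Or.inl h1
  · exact Or.inr (Or.inl h1)

/-- No percolation at `p_c` on quasi-transitive graphs of growth at least `exp (c n ^ a)`. -/
theorem exp_no_perc {V : Type} {G : SimpleGraph V} [G.LocallyFinite] [Infinite V]
    (hG : G.Connected) (hqt : IsQuasiTransitive G) (hpc1 : pc G < 1) (o : V) {a c : ℝ}
    (ha : 0 < a) (hc : 0 < c)
    (h : ∀ n : ℕ, Real.exp (c * (n : ℝ) ^ a) ≤ ({y | G.dist o y ≤ n}.ncard : ℝ))
    (p : unitInterval) (hp : (p : ℝ) = pc G) :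
    setBernoulli G.edgeSet p (hasInfiniteCluster V) = 0 := by
  classical
  have hball : ∀ r : ℕ, Real.exp (c * (r : ℝ) ^ a) ≤ (ballF G o r).card := by
    intro r
    have h1 : {y | G.dist o y ≤ r} = (ballF G o r : Set V) := by
      ext y
      rw [Set.mem_ofPred_eq, Finset.mem_coe, mem_ballF_iff hG, SimpleGraph.dist_comm]
    have h2 := h r
    rw [h1, Set.ncard_coe_finset] at h2
    exact h2
  by_cases ham : IsAmenable G
  · exact R2.H279.amenable_case hG hqt ham hpc1 o hc ha hball p hp
  · exact NA.no_perc_of_nonamenable G hG hqt ham hpc1 p hp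

/-- **Bernoulli bond percolation on quasi-transitive graphs of polynomial growth.** Let `G` be an
infinite, connected, locally finite, quasi-transitive graph with `p_c(G) < 1`; no further symmetry
is assumed.
1. Suppose that `G` has weak polynomial growth: `|B(o, n)| ≤ n ^ D` for infinitely many `n`, for
   some vertex `o` and some `D` (for example polynomial growth). Then `p_c > 0`; for `p ≤ p_c`, in
   particular at `p_c`, there is almost surely no infinite open cluster; for `p > p_c` there is
   almost surely exactly one; the percolation probabilities `θ_x` are continuous on `[0, 1]`, and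
   `θ_x(p) ≥ c (p - p_c)` for `p ≥ p_c`, with `c > 0`.
2. Without any assumption on the growth: if there is an infinite open cluster with positive
   probability at some `p ≤ p_c`, then `G` is amenable, for every `o` and every `D`
   one has `|B(o, n)| > n ^ D` for all large `n`, and for every `o` and all `a, c > 0` one has
   `|B(o, n)| < exp (c n ^ a)` for some `n`. -/
theorem result (V : Type) (G : SimpleGraph V) [G.LocallyFinite] [Infinite V]
    (hG : G.Connected) (hqt : IsQuasiTransitive G) (hpc1 : pc G < 1) :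
    (HasWeakPolynomialGrowth G →
      0 < pc G ∧
      (∀ p : unitInterval, (p : ℝ) ≤ pc G →
        setBernoulli G.edgeSet p (hasInfiniteCluster V) = 0) ∧
      (∀ p : unitInterval, pc G < p →
        setBernoulli G.edgeSet p (uniqueInfiniteCluster V)ᶜ = 0) ∧
      (∀ x : V, Continuous (theta G x)) ∧
      ∀ x : V, ∃ c : ℝ, 0 < c ∧ ∀ p : unitInterval, pc G ≤ p →
        c * (p - pc G) ≤ theta G x p) ∧
    ∀ p : unitInterval, (p : ℝ) ≤ pc G →
      0 < setBernoulli G.edgeSet p (hasInfiniteCluster V) →
      IsAmenable G ∧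
      (∀ (o : V) (D : ℕ), ∃ N : ℕ, ∀ n : ℕ, N ≤ n → n ^ D < {y | G.dist o y ≤ n}.ncard) ∧
      ∀ (o : V) (a c : ℝ), 0 < a → 0 < c →
        ∃ n : ℕ, ({y | G.dist o y ≤ n}.ncard : ℝ) < Real.exp (c * (n : ℝ) ^ a) := by
  classical
  refine ⟨fun hgr => ?_, fun p hp hpos => ⟨?_, fun o D => ?_, fun o a c ha hc => ?_⟩⟩
  · have hno := weak_no_perc hG hqt hpc1 hgr
    have ham : IsAmenable G := by
      obtain ⟨o, D, h⟩ := hgr
      exact GB.isAmenable_of_weak hG o (Filter.frequently_atTop.2 h)
    have h1 := high hG hqt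
    have h2 := amen hG hqt ham hno
    exact ⟨h1.1, fun p hp => (low hG hno p hp).1, h2.2 inferInstance, h2.1, h1.2⟩
  · by_contra ham
    have hno := NA.no_perc_of_nonamenable G hG hqt ham hpc1
    exact hpos.ne' (low hG hno p hp).1
  · by_contra hcon
    push Not at hcon
    have hno := weak_no_perc hG hqt hpc1 ⟨o, D, hcon⟩
    exact hpos.ne' (low hG hno p hp).1
  · by_contra hcon
    push Not at hcon
    have hno := exp_no_perc hG hqt hpc1 o ha hc hcon
    exact hpos.ne' (low hG hno p hp).1

end Vale.Agent.Results.P151.APolynomialGrowth
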