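import Vale.Agent.P151.GB.Amen
import Vale.Agent.P151.H648.Main
import Vale.Agent.P151.QP.Final
import Vale.Agent.P151.QP.Drop
import Vale.Agent.P151.QP.Param

open MeasureTheory ProbabilityTheory Filter

namespace Vale.Agent.Results.P151.BQuasiPolyGrowth

open Vale.Agent.P151 Vale.Agent.P151.H648

/-- The balls around some vertex `o` grow faster than `n ^ (C log n)` for every `C`, that is,
`log |B(o, n)| / (log n) ^ 2 → ∞`. -/
def FasterThanQuasiPoly {V : Type} (G : SimpleGraph V) : Prop :=
  ∃ o : V, Tendsto (fun n : ℕ => Real.log ({y | G.dist o y ≤ n}.ncard : ℝ) / Real.log n ^ 2)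
    atTop atTop

/-- The balls of `G` as finite sets. -/
theorem ball_eq {V : Type} [DecidableEq V] {G : SimpleGraph V} [G.LocallyFinite]
    (hG : G.Connected) (o : V) (n : ℕ) : {y | G.dist o y ≤ n} = (ballF G o n : Set V) := by
  ext y
  rw [Set.mem_ofPred_eq, Finset.mem_coe, mem_ballF_iff hG, SimpleGraph.dist_comm]

/-- No percolation at `p_c` on quasi-transitive graphs of growth faster than `n ^ (C log n)`. -/
theorem fast_no_perc {V : Type} {G : SimpleGraph V} [G.LocallyFinite] (hG : G.Connected)
    (hqt : IsQuasiTransitive G) (hpc1 : pc G < 1) (hgr : FasterThanQuasiPoly G)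
    (p : unitInterval) (hp : (p : ℝ) = pc G) :
    setBernoulli G.edgeSet p (hasInfiniteCluster V) = 0 := by
  classical
  by_cases ham : IsAmenable G
  · obtain ⟨o, h⟩ := hgr
    have hgrow : QP.Stmts.Growth G o := by
      intro A
      obtain ⟨N, hN⟩ := Filter.eventually_atTop.1
        ((h.eventually (eventually_ge_atTop A)).and (eventually_ge_atTop 2))
      refine ⟨N, fun n hn => ?_⟩
      obtain ⟨h2, h3⟩ := hN n hn
      rw [ball_eq hG, Set.ncard_coe_finset] at h2
      have h5 : 0 < Real.log (n : ℝ) := Real.log_pos (by exact_mod_cast h3)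
      rw [le_div_iff₀ (by positivity)] at h2
      have h6 : (0 : ℝ) < (ballF G o n).card := by
        exact_mod_cast Finset.card_pos.2 ⟨o, mem_ballF_self G o n⟩
      rwa [← Real.le_log_iff_exp_le h6]
    have hinf : Infinite V := QP.infinite_of_growth2 hgrow
    obtain ⟨R, hR⟩ := id hqt
    have hR' : ∀ x : V, ∃ g : G ≃g G, g x ∈ R := by
      intro x
      obtain ⟨y, hy, φ, rfl⟩ := hR x
      exact ⟨φ.symm, by simpa using hy⟩
    exact QP.amenable_case2 hG hqt hpc1 (QP.drop hG hR' ham) (QP.param hG hR' hgrow) p hp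
  · exact NA.no_perc_of_nonamenable G hG hqt ham hpc1 p hp

/-- No percolation at `p_c` on quasi-transitive graphs of weak polynomial growth. -/
theorem weak_no_perc {V : Type} {G : SimpleGraph V} [G.LocallyFinite] [Infinite V]
    (hG : G.Connected) (hqt : IsQuasiTransitive G) (hpc1 : pc G < 1) {o : V} {D : ℕ}
    (h : ∀ N : ℕ, ∃ n : ℕ, N ≤ n ∧ {y | G.dist o y ≤ n}.ncard ≤ n ^ D)
    (p : unitInterval) (hp : (p : ℝ) = pc G) :
    setBernoulli G.edgeSet p (hasInfiniteCluster V) = 0 := by
  have hw : ∃ᶠ n : ℕ in Filter.atTop, {y | G.dist o y ≤ n}.ncard ≤ n ^ D :=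
    Filter.frequently_atTop.2 h
  refine no_perc_class V G hG hpc1 ?_ p hp
  rcases GB.weak_class hG hqt o hw with h1 | h1
  · exact Or.inl h1
  · exact Or.inr (Or.inl h1)

/-- **The phase transition is continuous on every quasi-transitive graph of growth faster than
`n ^ (C log n)` for every `C`.** Let `G` be an infinite, connected, locally finite,
quasi-transitive graph with `p_c(G) < 1`. For Bernoulli bond percolation:
1. Suppose that `log |B(o, n)| / (log n) ^ 2 → ∞` for some vertex `o`. Then, for every `p ≤ p_c`,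
   in particular at `p_c`, there is almost surely no infinite open cluster and the percolation
   probabilities `θ_x` are continuous at `p`; moreover `p_c > 0` and `θ_x(p) ≥ c (p - p_c)` for
   `p ≥ p_c`, with `c > 0`; if `G` is amenable, then every `θ_x` is continuous on `[0, 1]` and for
   `p > p_c` there is almost surely exactly one infinite open cluster.
2. Without any assumption on the growth: if there is an infinite open cluster with positive
   probability at some `p ≤ p_c`, then `G` is amenable, for every `o` and every `D` one has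
   `|B(o, n)| > n ^ D` for all large `n`, and for every `o` there is an `A` such that
   `|B(o, n)| ≤ exp (A (log n) ^ 2)` for infinitely many `n`. -/
theorem result (V : Type) (G : SimpleGraph V) [G.LocallyFinite] [Infinite V]
    (hG : G.Connected) (hqt : IsQuasiTransitive G) (hpc1 : pc G < 1) :
    (FasterThanQuasiPoly G →
      (∀ p : unitInterval, (p : ℝ) ≤ pc G →
        setBernoulli G.edgeSet p (hasInfiniteCluster V) = 0 ∧
        ∀ x : V, ContinuousAt (theta G x) p) ∧
      (0 < pc G ∧ ∀ x : V, ∃ c : ℝ, 0 < c ∧ ∀ p : unitInterval, pc G ≤ p →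
        c * (p - pc G) ≤ theta G x p) ∧
      (IsAmenable G → (∀ x : V, Continuous (theta G x)) ∧
        ∀ p : unitInterval, pc G < p →
          setBernoulli G.edgeSet p (uniqueInfiniteCluster V)ᶜ = 0)) ∧
    ∀ p : unitInterval, (p : ℝ) ≤ pc G →
      0 < setBernoulli G.edgeSet p (hasInfiniteCluster V) →
      IsAmenable G ∧
      (∀ (o : V) (D : ℕ), ∃ N : ℕ, ∀ n : ℕ, N ≤ n → n ^ D < {y | G.dist o y ≤ n}.ncard) ∧
      ∀ o : V, ∃ A : ℝ, ∀ N : ℕ, ∃ n : ℕ, N ≤ n ∧
        ({y | G.dist o y ≤ n}.ncard : ℝ) ≤ Real.exp (A * Real.log n ^ 2) := by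
  classical
  refine ⟨fun hgr => ?_, fun p hp hpos => ⟨?_, fun o D => ?_, fun o => ?_⟩⟩
  · have hno := fast_no_perc hG hqt hpc1 hgr
    refine ⟨fun p hp => low hG hno p hp, high hG hqt, fun ham => ?_⟩
    have h3 := amen hG hqt ham hno
    exact ⟨h3.1, h3.2 inferInstance⟩
  · by_contra ham
    have hno := NA.no_perc_of_nonamenable G hG hqt ham hpc1
    exact hpos.ne' (low hG hno p hp).1
  · by_contra hcon
    push Not at hcon
    have hno := weak_no_perc hG hqt hpc1 hcon
    exact hpos.ne' (low hG hno p hp).1
  · by_contra hcon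
    push Not at hcon
    have hgr : FasterThanQuasiPoly G := by
      refine ⟨o, Filter.tendsto_atTop.2 fun A => ?_⟩
      obtain ⟨N, hN⟩ := hcon A
      filter_upwards [eventually_ge_atTop N, eventually_ge_atTop 2] with n hn hn2
      have h1 := hN n hn
      have h5 : 0 < Real.log (n : ℝ) := Real.log_pos (by exact_mod_cast hn2)
      rw [le_div_iff₀ (by positivity)]
      have h6 := Real.exp_pos (A * Real.log (n : ℝ) ^ 2)
      rw [Real.le_log_iff_exp_le (h6.trans h1)]
      exact h1.le
    have hno := fast_no_perc hG hqt hpc1 hgr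
    exact hpos.ne' (low hG hno p hp).1

end Vale.Agent.Results.P151.BQuasiPolyGrowth
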