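import Vale.Agent.P151.FULL.Final

open MeasureTheory ProbabilityTheory

namespace Vale.Agent.Results.P151.CQuasiTransitive

open Vale.Agent.P151 Vale.Agent.P151.H648

/-- **There is no percolation at the critical point of any quasi-transitive graph with
`p_c < 1`.** Let `G` be an infinite, connected, locally finite, quasi-transitive graph with
`p_c(G) < 1`. For Bernoulli bond percolation:
1. for every `p ≤ p_c`, in particular at `p = p_c`, there is almost surely no infinite open cluster,
   and all percolation probabilities `θ_x` vanish and are continuous at `p`;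
2. `p_c > 0`, and `θ_x(p) ≥ c (p - p_c)` for all `p ≥ p_c`, with `c > 0`;
3. if `G` is amenable, then every `θ_x` is continuous on `[0, 1]` and for every `p > p_c` there is
   almost surely exactly one infinite open cluster. -/
theorem result (V : Type) (G : SimpleGraph V) [G.LocallyFinite] [Infinite V]
    (hG : G.Connected) (hqt : IsQuasiTransitive G) (hpc1 : pc G < 1) :
    (∀ p : unitInterval, (p : ℝ) ≤ pc G →
      setBernoulli G.edgeSet p (hasInfiniteCluster V) = 0 ∧
      ∀ x : V, theta G x p = 0 ∧ ContinuousAt (theta G x) p) ∧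
    (0 < pc G ∧ ∀ x : V, ∃ c : ℝ, 0 < c ∧ ∀ p : unitInterval, pc G ≤ p →
      c * (p - pc G) ≤ theta G x p) ∧
    (IsAmenable G → (∀ x : V, Continuous (theta G x)) ∧
      ∀ p : unitInterval, pc G < p →
        setBernoulli G.edgeSet p (uniqueInfiniteCluster V)ᶜ = 0) := by
  classical
  have hno := FULL.no_perc_of_seam FULL.seam hG hqt hpc1
  refine ⟨fun p hp => ?_, high hG hqt, fun ham => ?_⟩
  · have h := low hG hno p hp
    exact ⟨h.1, fun x => ⟨theta_eq_zero_of_null x h.1, h.2 x⟩⟩
  · have h3 := amen hG hqt ham hno
    exact ⟨h3.1, h3.2 inferInstance⟩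

end Vale.Agent.Results.P151.CQuasiTransitive
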